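import Vale.Agent.P067.FinalDefs

/-!
# P067: counting form of coboundary expansion

Cochains are functions on all finite sets; only their values on faces matter.
-/

set_option autoImplicit false

open Finset

namespace Vale.Agent.P067.H610

open Vale.Agent.P067

attribute [local instance] Classical.propDecidable

/-- The coboundary of a cochain. -/
noncomputable def cb {α : Type} (f : Finset α → ZMod 2) (t : Finset α) : ZMod 2 :=
  ∑ v ∈ t, f (t.erase v)

variable {V : Type} [Fintype V]

/-- The number of faces of `X` with `q` vertices at which `f` does not vanish. -/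
noncomputable def cnt (X : AbstractSimplicialComplex V) (q : ℕ) (f : Finset V → ZMod 2) : ℕ :=
  ((univ : Finset (Finset V)).filter fun s => s ∈ X ∧ s.card = q ∧ f s ≠ 0).card

/-- Cofilling inequality with constant `K`, counting faces without weights. -/
def Cof (X : AbstractSimplicialComplex V) (d K : ℕ) : Prop :=
  ∀ q, 1 ≤ q → q ≤ d → ∀ f : Finset V → ZMod 2, ∃ e : Finset V → ZMod 2,
    cnt X q (fun s => f s + cb e s) ≤ K * cnt X (q + 1) (cb f)

omit [Fintype V] in
theorem face_nonempty {X : AbstractSimplicialComplex V} {s : Finset V} (h : s ∈ X) :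
    s.Nonempty := (X.isRelLowerSet_faces h).1

omit [Fintype V] in
theorem face_mono {X : AbstractSimplicialComplex V} {s t : Finset V} (h : s ∈ X) (hts : t ⊆ s)
    (ht : t.Nonempty) : t ∈ X := (X.isRelLowerSet_faces h).2 hts ht

/-- The coboundary as a sum over the facets of a face. -/
theorem cobd_eq (X : AbstractSimplicialComplex V) (i : ℕ) (g : Face X i → ZMod 2)
    (G : Finset V → ZMod 2) (hG : ∀ s : Face X i, G s.1 = g s) (t : Face X (i + 1)) :
    cobd X i g t = cb G t.1 := by
  unfold cobd cb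
  symm
  refine sum_bij (fun v hv => ⟨t.1.erase v, ?_, ?_⟩) ?_ ?_ ?_ ?_
  · refine face_mono t.2.1 (erase_subset _ _) ?_
    rw [← card_pos, card_erase_of_mem hv, t.2.2]
    omega
  · rw [card_erase_of_mem hv, t.2.2]
    omega
  · intro v hv
    rw [mem_filter]
    exact ⟨mem_univ _, erase_subset _ _⟩
  · intro v hv w hw h
    have h1 : t.1.erase v = t.1.erase w := congrArg Subtype.val h
    by_contra hne
    have h2 : v ∈ t.1.erase w := mem_erase.2 ⟨hne, hv⟩
    rw [← h1] at h2
    exact notMem_erase v _ h2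
  · intro s hs
    rw [mem_filter] at hs
    have hc : (t.1 \ s.1).card = 1 := by
      rw [card_sdiff_of_subset hs.2, t.2.2, s.2.2]
      omega
    obtain ⟨v, hv⟩ := card_eq_one.1 hc
    have hvt : v ∈ t.1 \ s.1 := by rw [hv]; exact mem_singleton_self v
    rw [mem_sdiff] at hvt
    refine ⟨v, hvt.1, Subtype.ext ?_⟩
    symm
    refine eq_of_subset_of_card_le ?_ ?_
    · intro x hx
      exact mem_erase.2 ⟨fun h => hvt.2 (h ▸ hx), hs.2 hx⟩
    · change (t.1.erase v).card ≤ s.1.card
      rw [card_erase_of_mem hvt.1, t.2.2, s.2.2]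
      omega
  · intro v hv
    exact hG ⟨t.1.erase v, _⟩

theorem card_top_pos {X : AbstractSimplicialComplex V} {d i : ℕ} (hP : IsPure X d)
    (s : Face X i) : 0 < Fintype.card (Face X d) := by
  obtain ⟨t, ht, hc, -⟩ := hP s.1 s.2.1
  exact Fintype.card_pos_iff.2 ⟨⟨t, ht, hc⟩⟩

theorem wt_le {X : AbstractSimplicialComplex V} {d D i : ℕ} (hD : degree X d ≤ D) (hi : i ≤ d)
    (s : Face X i) : wt X d s ≤ D / (Fintype.card (Face X d) : ℝ) := by
  unfold wt
  obtain ⟨v, hv⟩ := face_nonempty s.2.1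
  have h0 : ((univ : Finset (Face X d)).filter fun t => v ∈ t.1).card ≤ degree X d := by
    unfold degree
    exact le_sup (f := fun v : V => ((univ : Finset (Face X d)).filter fun t => v ∈ t.1).card)
      (mem_univ v)
  have h1 : ((univ : Finset (Face X d)).filter fun t => s.1 ⊆ t.1).card ≤ D := by
    refine le_trans (card_le_card fun t ht => ?_) (h0.trans hD)
    rw [mem_filter] at ht ⊢
    exact ⟨ht.1, ht.2 hv⟩
  have h2 : (1 : ℝ) ≤ (Nat.choose (d + 1) (i + 1) : ℝ) := by
    exact_mod_cast Nat.choose_pos (by omega)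
  rcases Nat.eq_zero_or_pos (Fintype.card (Face X d)) with h0 | h0
  · rw [h0]; simp
  · have h3 : (0 : ℝ) < (Fintype.card (Face X d) : ℝ) := by exact_mod_cast h0
    refine div_le_div₀ (by positivity) (by exact_mod_cast h1) h3 ?_
    nlinarith only [h2, h3]

theorem le_wt {X : AbstractSimplicialComplex V} {d i : ℕ} (hP : IsPure X d)
    (s : Face X i) : 1 / (2 ^ (d + 1) * (Fintype.card (Face X d) : ℝ)) ≤ wt X d s := by
  unfold wt
  have h0 := card_top_pos hP s
  obtain ⟨t, ht, hc, hst⟩ := hP s.1 s.2.1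
  have h1 : 1 ≤ ((univ : Finset (Face X d)).filter fun t => s.1 ⊆ t.1).card := by
    rw [Nat.one_le_iff_ne_zero, ← Nat.pos_iff_ne_zero, card_pos]
    exact ⟨⟨t, ht, hc⟩, by rw [mem_filter]; exact ⟨mem_univ _, hst⟩⟩
  have hi : i ≤ d := by
    have := card_le_card hst
    rw [s.2.2, hc] at this
    omega
  have h2 : (Nat.choose (d + 1) (i + 1) : ℝ) ≤ 2 ^ (d + 1) := by
    exact_mod_cast Nat.choose_le_two_pow (d + 1) (i + 1)
  have h3 : (0 : ℝ) < (Nat.choose (d + 1) (i + 1) : ℝ) := by
    exact_mod_cast Nat.choose_pos (by omega)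
  have h4 : (0 : ℝ) < (Fintype.card (Face X d) : ℝ) := by exact_mod_cast h0
  refine div_le_div₀ (by positivity) (by exact_mod_cast h1) (by positivity) ?_
  nlinarith only [h2, h4]

/-- Number of faces where a typed cochain does not vanish. -/
theorem card_typed (X : AbstractSimplicialComplex V) (i : ℕ) (g : Face X i → ZMod 2)
    (G : Finset V → ZMod 2) (hG : ∀ s : Face X i, G s.1 = g s) :
    ((univ : Finset (Face X i)).filter fun s => g s ≠ 0).card = cnt X (i + 1) G := by
  unfold cnt
  refine card_bij (fun s _ => s.1) ?_ ?_ ?_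
  · intro s hs
    rw [mem_filter] at hs ⊢
    exact ⟨mem_univ _, s.2.1, s.2.2, by rw [hG]; exact hs.2⟩
  · intro s _ t _ h
    exact Subtype.ext h
  · intro s hs
    rw [mem_filter] at hs
    refine ⟨⟨s, hs.2.1, hs.2.2.1⟩, ?_, rfl⟩
    rw [mem_filter]
    exact ⟨mem_univ _, by rw [← hG]; exact hs.2.2.2⟩

theorem cnorm_le {X : AbstractSimplicialComplex V} {d D i : ℕ} (hD : degree X d ≤ D) (hi : i ≤ d)
    (g : Face X i → ZMod 2) (G : Finset V → ZMod 2) (hG : ∀ s : Face X i, G s.1 = g s) :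
    cnorm X d g ≤ cnt X (i + 1) G * (D / (Fintype.card (Face X d) : ℝ)) := by
  unfold cnorm
  refine (sum_le_card_nsmul _ _ _ fun s _ => wt_le hD hi s).trans ?_
  rw [nsmul_eq_mul, card_typed X i g G hG]

theorem le_cnorm {X : AbstractSimplicialComplex V} {d i : ℕ} (hP : IsPure X d)
    (g : Face X i → ZMod 2) (G : Finset V → ZMod 2) (hG : ∀ s : Face X i, G s.1 = g s) :
    cnt X (i + 1) G * (1 / (2 ^ (d + 1) * (Fintype.card (Face X d) : ℝ))) ≤ cnorm X d g := by
  unfold cnorm
  refine le_trans ?_ (card_nsmul_le_sum _ _ _ fun s _ => le_wt hP s)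
  rw [nsmul_eq_mul, card_typed X i g G hG]

theorem cnorm_nonneg' (X : AbstractSimplicialComplex V) (d : ℕ) {i : ℕ} (f : Face X i → ZMod 2) :
    0 ≤ cnorm X d f := by
  unfold cnorm wt
  exact sum_nonneg fun s _ => by positivity

/-- Extension of a typed cochain by zero. -/
noncomputable def ext0 (X : AbstractSimplicialComplex V) (i : ℕ) (g : Face X i → ZMod 2)
    (s : Finset V) : ZMod 2 :=
  if h : s ∈ X ∧ s.card = i + 1 then g ⟨s, h⟩ else 0

omit [Fintype V] in
theorem ext0_face (X : AbstractSimplicialComplex V) (i : ℕ) (g : Face X i → ZMod 2)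
    (s : Face X i) : ext0 X i g s.1 = g s := by
  unfold ext0
  rw [dif_pos s.2]

/-- Coboundaries are the `cb e`. -/
theorem exists_cb (X : AbstractSimplicialComplex V) (i : ℕ) (a : Face X i → ZMod 2)
    (ha : a ∈ cobs X i) : ∃ e : Finset V → ZMod 2, ∀ s : Face X i, cb e s.1 = a s := by
  cases i with
  | zero =>
    obtain ⟨c, hc⟩ := ha
    refine ⟨fun _ => c, fun s => ?_⟩
    unfold cb
    rw [sum_const, s.2.2, hc]
    simp
  | succ j =>
    obtain ⟨b, rfl⟩ := ha
    exact ⟨ext0 X j b, fun s => (cobd_eq X j b _ (ext0_face X j b) s).symm⟩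

theorem cb_mem (X : AbstractSimplicialComplex V) (i : ℕ) (e : Finset V → ZMod 2) :
    (fun s : Face X i => cb e s.1) ∈ cobs X i := by
  cases i with
  | zero =>
    refine ⟨e ∅, fun s => ?_⟩
    obtain ⟨v, hv⟩ := card_eq_one.1 (s.2.2 : s.1.card = 0 + 1)
    change cb e s.1 = e ∅
    rw [hv]
    unfold cb
    rw [sum_singleton]
    congr 1
    simp
  | succ j =>
    exact ⟨fun t => e t.1, funext fun s => cobd_eq X j _ e (fun _ => rfl) s⟩

theorem add_eq_sub (a b : ZMod 2) : a - b = a + b := by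
  rw [sub_eq_add_neg, ZMod.neg_eq_self_mod_two]

/-- From the official form to the counting form. -/
theorem cof_of_expander {X : AbstractSimplicialComplex V} {d D : ℕ} {ε : ℝ} (hP : IsPure X d)
    (hD : degree X d ≤ D) (hX : IsCoboundaryExpander X d ε) {K : ℕ}
    (hK : (D : ℝ) * 2 ^ (d + 1) ≤ K * ε) (hε : 0 < ε) : Cof X d K := by
  intro q hq hqd f
  obtain ⟨i, rfl⟩ : ∃ i, q = i + 1 := ⟨q - 1, by omega⟩
  have hid : i < d := by omega
  have h1 := hX i hid (fun s => f s.1)
  have hfin : ((fun a => cnorm X d ((fun s : Face X i => f s.1) - a)) '' cobs X i).Finite :=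
    (Set.toFinite (cobs X i)).image _
  have hne : ((fun a => cnorm X d ((fun s : Face X i => f s.1) - a)) '' cobs X i).Nonempty :=
    ⟨_, _, cb_mem X i (fun _ => 0), rfl⟩
  obtain ⟨a, ha, hmin⟩ := hne.csInf_mem hfin
  obtain ⟨e, he⟩ := exists_cb X i a ha
  refine ⟨e, ?_⟩
  have h2 := le_cnorm hP ((fun s : Face X i => f s.1) - a) (fun s => f s + cb e s) (fun s => by
    rw [Pi.sub_apply, add_eq_sub, he])
  have h3 := cnorm_le hD (i := i + 1) (by omega) (cobd X i fun s => f s.1) (cb f) (fun t =>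
    (cobd_eq X i _ f (fun _ => rfl) t).symm)
  change ε * sInf _ ≤ _ at h1
  rw [← hmin] at h1
  rcases Nat.eq_zero_or_pos (Fintype.card (Face X d)) with h0 | h0
  · have h4 : cnt X (i + 1) (fun s => f s + cb e s) = 0 := by
      rw [cnt, card_eq_zero, filter_eq_empty_iff]
      rintro s - ⟨hs, hc, -⟩
      have := card_top_pos hP (⟨s, hs, hc⟩ : Face X i)
      omega
    rw [h4]
    exact Nat.zero_le _
  · have h4 : (0 : ℝ) < (Fintype.card (Face X d) : ℝ) := by exact_mod_cast h0
    set c : ℝ := (Fintype.card (Face X d) : ℝ) with hc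
    set A : ℝ := (cnt X (i + 1) (fun s => f s + cb e s) : ℝ) with hA
    set B : ℝ := (cnt X (i + 1 + 1) (cb f) : ℝ) with hB
    have hB0 : 0 ≤ B := by positivity
    have h5 : ε * (A * (1 / (2 ^ (d + 1) * c))) ≤ B * (D / c) :=
      (mul_le_mul_of_nonneg_left h2 hε.le).trans (h1.trans h3)
    have h6 : ε * A ≤ B * (D * 2 ^ (d + 1)) := by
      have h7 : ε * A / (2 ^ (d + 1) * c) ≤ B * D / c := by
        calc ε * A / (2 ^ (d + 1) * c) = ε * (A * (1 / (2 ^ (d + 1) * c))) := by ring
          _ ≤ B * (D / c) := h5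
          _ = B * D / c := by ring
      rw [div_le_div_iff₀ (by positivity) h4] at h7
      have h8 : (ε * A) * c ≤ (B * (D * 2 ^ (d + 1))) * c := by
        calc (ε * A) * c ≤ B * D * (2 ^ (d + 1) * c) := h7
          _ = (B * (D * 2 ^ (d + 1))) * c := by ring
      exact le_of_mul_le_mul_right h8 h4
    have h9 : ε * A ≤ ε * (K * B) := by
      calc ε * A ≤ B * (D * 2 ^ (d + 1)) := h6
        _ ≤ B * (K * ε) := mul_le_mul_of_nonneg_left hK hB0
        _ = ε * (K * B) := by ring
    have h10 : A ≤ K * B := le_of_mul_le_mul_left h9 hε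
    rw [hA, hB] at h10
    exact_mod_cast h10

/-- From the counting form to the official form. -/
theorem expander_of_cof {X : AbstractSimplicialComplex V} {d D K : ℕ} (hP : IsPure X d)
    (hD : degree X d ≤ D) (hX : Cof X d K) :
    IsCoboundaryExpander X d (1 / ((K + 1) * (D + 1) * 2 ^ (d + 1))) := by
  intro i hi f
  obtain ⟨e, he⟩ := hX (i + 1) (by omega) (by omega) (ext0 X i f)
  have hbdd : BddBelow ((fun a => cnorm X d (f - a)) '' cobs X i) :=
    ⟨0, by rintro _ ⟨a, -, rfl⟩; exact cnorm_nonneg' X d _⟩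
  have h1 : cdist X d f (cobs X i) ≤ cnorm X d (f - fun s : Face X i => cb e s.1) :=
    csInf_le hbdd ⟨_, cb_mem X i e, rfl⟩
  have h2 := cnorm_le hD (i := i) (by omega) (f - fun s : Face X i => cb e s.1)
    (fun s => ext0 X i f s + cb e s) (fun s => by
      rw [Pi.sub_apply, add_eq_sub, ext0_face])
  have h3 := le_cnorm hP (cobd X i f) (cb (ext0 X i f)) (fun t =>
    (cobd_eq X i _ _ (ext0_face X i f) t).symm)
  have h4 : (0 : ℝ) ≤ 1 / ((K + 1) * (D + 1) * 2 ^ (d + 1)) := by positivity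
  refine (mul_le_mul_of_nonneg_left (h1.trans h2) h4).trans (le_trans ?_ h3)
  rcases Nat.eq_zero_or_pos (Fintype.card (Face X d)) with h0 | h0
  · rw [h0]; simp
  · have h5 : (0 : ℝ) < (Fintype.card (Face X d) : ℝ) := by exact_mod_cast h0
    set c : ℝ := (Fintype.card (Face X d) : ℝ) with hc
    have h6 : (cnt X (i + 1) (fun s => ext0 X i f s + cb e s) : ℝ) ≤
        K * (cnt X (i + 1 + 1) (cb (ext0 X i f)) : ℝ) := by exact_mod_cast he
    set A : ℝ := (cnt X (i + 1) (fun s => ext0 X i f s + cb e s) : ℝ) with hA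
    set B : ℝ := (cnt X (i + 1 + 1) (cb (ext0 X i f)) : ℝ) with hB
    have hB0 : 0 ≤ B := by positivity
    have hA0 : 0 ≤ A := by positivity
    have h7 : A * D ≤ B * ((K + 1) * (D + 1)) := by
      have hK0 : (0 : ℝ) ≤ K := by positivity
      have hD0 : (0 : ℝ) ≤ D := by positivity
      calc A * D ≤ (K * B) * D := mul_le_mul_of_nonneg_right h6 hD0
        _ ≤ B * ((K + 1) * (D + 1)) := by nlinarith [mul_nonneg hB0 hK0, mul_nonneg hB0 hD0]
    have e1 : 1 / (((K : ℝ) + 1) * (D + 1) * 2 ^ (d + 1)) * (A * (D / c)) =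
        (A * D) / (((K : ℝ) + 1) * (D + 1) * (2 ^ (d + 1) * c)) := by
      field_simp
    have e2 : B * (1 / (2 ^ (d + 1) * c)) =
        (B * ((K + 1) * (D + 1))) / (((K : ℝ) + 1) * (D + 1) * (2 ^ (d + 1) * c)) := by
      field_simp
    rw [e1, e2]
    exact div_le_div_of_nonneg_right h7 (by positivity)

end Vale.Agent.P067.H610
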