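import Vale.Agent.P067.H610.Conv

/-!
# P067: truncated joins of a complex with a simplex

`gad K j d`: the `d`-skeleton of the join of `K` (placed by the injection `j`) with the full simplex
on the other vertices. It is the `d`-skeleton of a cone.
-/

set_option autoImplicit false

open Finset

namespace Vale.Agent.P067.H610

open Vale.Agent.P067

attribute [local instance] Classical.propDecidable

/-- The `d`-skeleton of the join of `K` with the simplex on the vertices outside `range j`. -/
def gad {U A : Type} (K : AbstractSimplicialComplex U) (j : U ↪ A) (d : ℕ) :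
    AbstractSimplicialComplex A where
  faces := {s | s.Nonempty ∧ s.card ≤ d + 1 ∧ ∀ t : Finset U, t.Nonempty → t.map j ⊆ s → t ∈ K}
  isRelLowerSet_faces := by
    rintro s ⟨h1, h2, h3⟩
    exact ⟨h1, fun t hts ht => ⟨ht, (card_le_card hts).trans h2,
      fun u hu hut => h3 u hu (hut.trans hts)⟩⟩
  singleton_mem v := by
    refine ⟨singleton_nonempty v, by simp, fun t ht hsub => ?_⟩
    have hc : t.card ≤ 1 := by
      have := card_le_card hsub
      rwa [card_map, card_singleton] at this
    obtain ⟨x, hx⟩ := card_eq_one.1 (le_antisymm hc (card_pos.2 ht))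
    rw [hx]
    exact K.singleton_mem x

theorem mem_gad {U A : Type} {K : AbstractSimplicialComplex U} {j : U ↪ A} {d : ℕ}
    {s : Finset A} : s ∈ gad K j d ↔ s.Nonempty ∧ s.card ≤ d + 1 ∧
      ∀ t : Finset U, t.Nonempty → t.map j ⊆ s → t ∈ K := Iff.rfl

/-- `L` is the `d`-skeleton of a cone with apex `b`. -/
def IsCone {A : Type} (L : AbstractSimplicialComplex A) (b : A) (d : ℕ) : Prop :=
  ∀ s ∈ L, s.card ≤ d → insert b s ∈ L

theorem gad_cone {U A : Type} (K : AbstractSimplicialComplex U) (j : U ↪ A) (d : ℕ) (b : A)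
    (hb : b ∉ Set.range j) : IsCone (gad K j d) b d := by
  intro s hs hc
  obtain ⟨h1, h2, h3⟩ := mem_gad.1 hs
  refine mem_gad.2 ⟨insert_nonempty _ _, (card_insert_le _ _).trans (by omega), ?_⟩
  intro t ht hsub
  refine h3 t ht fun x hx => ?_
  rcases mem_insert.1 (hsub hx) with h | h
  · obtain ⟨u, -, hu⟩ := mem_map.1 hx
    exact absurd ⟨u, hu.trans h⟩ hb
  · exact h

theorem gad_pure {U A : Type} [Fintype U] [Fintype A] (K : AbstractSimplicialComplex U)
    (j : U ↪ A) (d : ℕ) (hA : Fintype.card U + d + 1 ≤ Fintype.card A) :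
    IsPure (gad K j d) d := by
  intro s hs
  obtain ⟨h1, h2, h3⟩ := mem_gad.1 hs
  have hE : d + 1 ≤ (s ∪ (univ \ (univ : Finset U).map j)).card := by
    refine le_trans ?_ (card_le_card subset_union_right)
    rw [card_sdiff_of_subset (subset_univ _), card_map, card_univ, card_univ]
    omega
  obtain ⟨t, hst, htE, ht⟩ := exists_subsuperset_card_eq
    (subset_union_left : s ⊆ s ∪ (univ \ (univ : Finset U).map j)) h2 hE
  refine ⟨t, mem_gad.2 ⟨h1.mono hst, ht.le, ?_⟩, ht, hst⟩
  intro u hu hut
  refine h3 u hu fun x hx => ?_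
  rcases mem_union.1 (htE (hut hx)) with h | h
  · exact h
  · obtain ⟨y, -, hy⟩ := mem_map.1 hx
    exact absurd (mem_map.2 ⟨y, mem_univ _, hy⟩) (mem_sdiff.1 h).2

theorem gad_copy {U A : Type} (K : AbstractSimplicialComplex U) (j : U ↪ A) (d : ℕ)
    (hK : ∀ s ∈ K, s.card ≤ d + 1) (s : Finset U) : s.map j ∈ gad K j d ↔ s ∈ K := by
  constructor
  · intro h
    obtain ⟨h1, -, h3⟩ := mem_gad.1 h
    exact h3 s (by simpa using h1) subset_rfl
  · intro h
    have hne : s.Nonempty := (K.isRelLowerSet_faces h).1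
    refine mem_gad.2 ⟨by simpa using hne, by rw [card_map]; exact hK s h, ?_⟩
    intro t ht hts
    exact (K.isRelLowerSet_faces h).2 (map_subset_map.1 hts) ht

/-! ### The cone formula -/

/-- Contraction with the apex. -/
noncomputable def ctr {A : Type} (b : A) (h : Finset A → ZMod 2) (t : Finset A) : ZMod 2 :=
  if b ∈ t then 0 else h (insert b t)

theorem cb_ctr_mem {A : Type} (b : A) (h : Finset A → ZMod 2) (t : Finset A) (hb : b ∈ t) :
    cb (ctr b h) t = h t := by
  unfold cb
  rw [← add_sum_erase t _ hb]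
  have h1 : ctr b h (t.erase b) = h t := by
    unfold ctr
    rw [if_neg (notMem_erase b t), insert_erase hb]
  have h2 : ∑ x ∈ t.erase b, ctr b h (t.erase x) = 0 := by
    refine sum_eq_zero fun x hx => ?_
    unfold ctr
    rw [if_pos]
    exact mem_erase.2 ⟨(ne_of_mem_erase hx).symm, hb⟩
  rw [h1, h2, add_zero]

theorem cb_ctr_notMem {A : Type} (b : A) (h : Finset A → ZMod 2) (t : Finset A) (hb : b ∉ t) :
    cb (ctr b h) t = h t + cb h (insert b t) := by
  have h0 : cb h (insert b t) = h t + ∑ x ∈ t, h ((insert b t).erase x) := by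
    unfold cb
    rw [sum_insert hb, erase_insert hb]
  have h1 : cb (ctr b h) t = ∑ x ∈ t, h ((insert b t).erase x) := by
    unfold cb
    refine sum_congr rfl fun x hx => ?_
    have hne : x ≠ b := fun h' => hb (h' ▸ hx)
    unfold ctr
    rw [if_neg (fun h' => hb (mem_of_mem_erase h')), erase_insert_of_ne hne.symm]
  rw [h0, h1, ← add_assoc, CharTwo.add_self_eq_zero, zero_add]

/-- In the `d`-skeleton of a cone, cocycles are coboundaries. -/
theorem ctr_fill {A : Type} {L : AbstractSimplicialComplex A} {b : A} {d q : ℕ}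
    (hL : IsCone L b d) (hq : q ≤ d) (h : Finset A → ZMod 2)
    (hz : ∀ t ∈ L, t.card = q + 1 → cb h t = 0) (t : Finset A) (ht : t ∈ L) (hc : t.card = q) :
    h t + cb (ctr b h) t = 0 := by
  by_cases hb : b ∈ t
  · rw [cb_ctr_mem b h t hb, CharTwo.add_self_eq_zero]
  · rw [cb_ctr_notMem b h t hb, hz _ (hL t ht (by omega)) (by rw [card_insert_of_notMem hb, hc]),
      add_zero, CharTwo.add_self_eq_zero]

theorem cone_cof {A : Type} [Fintype A] {L : AbstractSimplicialComplex A} {b : A} {d M : ℕ}
    (hL : IsCone L b d) (hM : Fintype.card A ≤ M) : Cof L d (2 ^ M) := by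
  intro q _ hqd f
  refine ⟨ctr b f, ?_⟩
  by_cases hz : ∀ t ∈ L, t.card = q + 1 → cb f t = 0
  · have h0 : cnt L q (fun s => f s + cb (ctr b f) s) = 0 := by
      rw [cnt, card_eq_zero, filter_eq_empty_iff]
      rintro s - ⟨hs, hc, hne⟩
      exact hne (ctr_fill hL hqd f hz s hs hc)
    rw [h0]
    exact Nat.zero_le _
  · push Not at hz
    obtain ⟨t, ht, hc, hne⟩ := hz
    have h1 : 1 ≤ cnt L (q + 1) (cb f) := by
      rw [cnt, Nat.one_le_iff_ne_zero, ← Nat.pos_iff_ne_zero, card_pos]
      exact ⟨t, mem_filter.2 ⟨mem_univ _, ht, hc, hne⟩⟩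
    have h2 : cnt L q (fun s => f s + cb (ctr b f) s) ≤ 2 ^ M := by
      rw [cnt]
      refine (card_filter_le _ _).trans ?_
      rw [card_univ, Fintype.card_finset]
      exact Nat.pow_le_pow_right (by norm_num) hM
    calc _ ≤ 2 ^ M := h2
      _ = 2 ^ M * 1 := by ring
      _ ≤ _ := Nat.mul_le_mul_left _ h1

/-- A cone skeleton is connected. -/
theorem cone_connected {A : Type} [Fintype A] {L : AbstractSimplicialComplex A} {b : A} {d : ℕ}
    (hL : IsCone L b d) (hd : 1 ≤ d) : (skel L).Connected := by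
  have key : ∀ x, (skel L).Reachable b x := by
    intro x
    by_cases hx : b = x
    · rw [hx]
    · refine SimpleGraph.Adj.reachable ⟨hx, ?_⟩
      exact hL {x} (L.singleton_mem x) (by simpa using hd)
  exact (SimpleGraph.connected_iff _).2 ⟨fun x y => (key x).symm.trans (key y), ⟨b⟩⟩

end Vale.Agent.P067.H610
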