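import Vale.Agent.P067.H610.Gadget

/-!
# P067: gluing cone skeleta at the vertices of a complex
-/

set_option autoImplicit false

open Finset

namespace Vale.Agent.P067.H610

open Vale.Agent.P067

attribute [local instance] Classical.propDecidable

attribute [-instance] Sigma.instDecidableEqSigma instDecidableEqSigma

section Cochains

variable {V0 : Type} {G : V0 → Type} (b : ∀ v, G v)

/-- The base vertices. -/
def bas : V0 ↪ (Σ v, G v) := ⟨fun v => ⟨v, b v⟩, fun _ _ h => congrArg Sigma.fst h⟩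

/-- The vertices over `v`. -/
def fib (G : V0 → Type) (v : V0) : G v ↪ (Σ v, G v) := Function.Embedding.sigmaMk v

@[simp] theorem bas_apply (v : V0) : bas b v = ⟨v, b v⟩ := rfl

@[simp] theorem fib_apply (v : V0) (x : G v) : fib G v x = ⟨v, x⟩ := rfl

theorem cb_map {α β : Type} (j : α ↪ β) (f : Finset β → ZMod 2) (t : Finset α) :
    cb f (t.map j) = cb (fun u => f (u.map j)) t := by
  unfold cb
  rw [sum_map]
  refine sum_congr rfl fun x _ => ?_
  beta_reduce
  rw [map_erase]

theorem fib_ne {v w : V0} {s : Finset (G v)} {t : Finset (G w)} (hs : s.Nonempty)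
    (h : s.map (fib G v) = t.map (fib G w)) : v = w := by
  obtain ⟨x, hx⟩ := hs
  have h1 : fib G v x ∈ t.map (fib G w) := by
    rw [← h]
    exact mem_map_of_mem _ hx
  obtain ⟨y, -, hy⟩ := mem_map.1 h1
  exact (congrArg Sigma.fst hy).symm

/-- The pull back of a cochain on the base. -/
noncomputable def pull (e : Finset V0 → ZMod 2) (s : Finset (Σ v, G v)) : ZMod 2 :=
  if Set.InjOn Sigma.fst (s : Set (Σ v, G v)) then e (s.image Sigma.fst) else 0

theorem pull_bas (e : Finset V0 → ZMod 2) (t : Finset V0) : pull e (t.map (bas b)) = e t := by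
  have h1 : Set.InjOn Sigma.fst ((t.map (bas b) : Finset (Σ v, G v)) : Set (Σ v, G v)) := by
    intro x hx y hy hxy
    rw [mem_coe, mem_map] at hx hy
    obtain ⟨v, -, rfl⟩ := hx
    obtain ⟨w, -, rfl⟩ := hy
    have : v = w := hxy
    rw [this]
  unfold pull
  rw [if_pos h1]
  congr 1
  ext v
  simp only [mem_image, mem_map]
  constructor
  · rintro ⟨x, ⟨w, hw, rfl⟩, rfl⟩
    exact hw
  · intro hv
    exact ⟨_, ⟨v, hv, rfl⟩, rfl⟩

theorem pull_empty (e : Finset V0 → ZMod 2) : pull e (∅ : Finset (Σ v, G v)) = e ∅ := by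
  unfold pull
  rw [if_pos (by simp)]
  simp

theorem pull_single (e : Finset V0 → ZMod 2) (v : V0) (x : G v) :
    pull e (({x} : Finset (G v)).map (fib G v)) = e {v} := by
  unfold pull
  rw [if_pos (by simp)]
  simp

theorem pull_fib (e : Finset V0 → ZMod 2) (v : V0) (t : Finset (G v)) (ht : 2 ≤ t.card) :
    pull e (t.map (fib G v)) = 0 := by
  unfold pull
  rw [if_neg]
  intro h
  obtain ⟨x, hx, y, hy, hne⟩ := one_lt_card.1 (by omega : 1 < t.card)
  refine hne ((fib G v).injective (h ?_ ?_ rfl))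
  · exact mem_coe.2 (mem_map_of_mem _ hx)
  · exact mem_coe.2 (mem_map_of_mem _ hy)

/-- The sum of the contractions over the fibres. -/
noncomputable def con [Fintype V0] (f : Finset (Σ v, G v) → ZMod 2) (s : Finset (Σ v, G v)) :
    ZMod 2 :=
  ∑ v : V0, if s.Nonempty ∧ (∀ x ∈ s, x.1 = v) ∧ bas b v ∉ s then f (insert (bas b v) s) else 0

theorem con_bas [Fintype V0] (f : Finset (Σ v, G v) → ZMod 2) (t : Finset V0) :
    con b f (t.map (bas b)) = 0 := by
  refine sum_eq_zero fun v _ => if_neg ?_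
  rintro ⟨⟨x, hx⟩, h1, h2⟩
  have h3 := h1 x hx
  obtain ⟨w, -, rfl⟩ := mem_map.1 hx
  have h4 : w = v := h3
  rw [h4] at hx
  exact h2 hx

theorem con_fib [Fintype V0] (f : Finset (Σ v, G v) → ZMod 2) (v : V0) (t : Finset (G v))
    (ht : t.Nonempty) :
    con b f (t.map (fib G v)) = ctr (b v) (fun u => f (u.map (fib G v))) t := by
  unfold con
  rw [sum_eq_single v]
  · have h1 : bas b v = fib G v (b v) := rfl
    unfold ctr
    by_cases hb : b v ∈ t
    · rw [if_neg, if_pos hb]
      rintro ⟨-, -, h⟩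
      rw [h1] at h
      exact h (mem_map_of_mem _ hb)
    · rw [if_pos, if_neg hb]
      · beta_reduce
        rw [map_insert, h1]
      refine ⟨ht.map, ?_, ?_⟩
      · intro x hx
        obtain ⟨y, -, rfl⟩ := mem_map.1 hx
        rfl
      · rw [h1]
        intro h
        obtain ⟨y, hy, hyb⟩ := mem_map.1 h
        rw [(fib G v).injective hyb] at hy
        exact hb hy
  · intro w _ hne
    rw [if_neg]
    rintro ⟨-, h, -⟩
    obtain ⟨x, hx⟩ := ht
    exact hne (h _ (mem_map_of_mem _ hx)).symm
  · intro h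
    exact absurd (mem_univ v) h

/-- The filling on the glued complex. -/
noncomputable def fil [Fintype V0] (e : Finset V0 → ZMod 2) (f : Finset (Σ v, G v) → ZMod 2)
    (s : Finset (Σ v, G v)) : ZMod 2 := pull e s + con b f s

theorem cb_fil_bas [Fintype V0] (e : Finset V0 → ZMod 2) (f : Finset (Σ v, G v) → ZMod 2)
    (t : Finset V0) : cb (fil b e f) (t.map (bas b)) = cb e t := by
  rw [cb_map]
  unfold cb fil
  refine sum_congr rfl fun x _ => ?_
  beta_reduce
  rw [pull_bas, con_bas, add_zero]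

theorem cb_fil_single [Fintype V0] (e : Finset V0 → ZMod 2) (f : Finset (Σ v, G v) → ZMod 2)
    (v : V0) (t : Finset (G v)) (ht : t.card = 1) :
    cb (fil b e f) (t.map (fib G v)) = e ∅ := by
  obtain ⟨x, rfl⟩ := card_eq_one.1 ht
  rw [cb_map]
  unfold cb
  rw [sum_singleton]
  have h1 : ({x} : Finset (G v)).erase x = ∅ := by simp
  beta_reduce
  rw [h1, map_empty]
  unfold fil
  rw [pull_empty]
  have h2 : con b f (∅ : Finset (Σ v, G v)) = 0 := by
    refine sum_eq_zero fun v _ => if_neg ?_
    rintro ⟨h, -⟩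
    exact not_nonempty_empty h
  rw [h2, add_zero]

theorem cb_fil_fib [Fintype V0] (e : Finset V0 → ZMod 2) (f : Finset (Σ v, G v) → ZMod 2)
    (v : V0) (t : Finset (G v)) (ht : 2 ≤ t.card) :
    cb (fil b e f) (t.map (fib G v)) = cb (ctr (b v) (fun u => f (u.map (fib G v)))) t := by
  rw [cb_map]
  unfold cb fil
  rw [sum_add_distrib]
  have h1 : ∑ x ∈ t, pull e ((t.erase x).map (fib G v)) = 0 := by
    rcases Nat.lt_or_ge 2 t.card with h | h
    · refine sum_eq_zero fun x hx => pull_fib e v _ ?_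
      rw [card_erase_of_mem hx]
      omega
    · have h2 : ∀ x ∈ t, pull e ((t.erase x).map (fib G v)) = e {v} := by
        intro x hx
        have h3 : (t.erase x).card = 1 := by
          rw [card_erase_of_mem hx]
          omega
        obtain ⟨y, hy⟩ := card_eq_one.1 h3
        rw [hy, pull_single]
      rw [sum_congr rfl h2, sum_const, le_antisymm h ht, two_smul, CharTwo.add_self_eq_zero]
  rw [h1, zero_add]
  refine sum_congr rfl fun x hx => ?_
  refine con_fib b f v _ ?_
  rw [← card_pos, card_erase_of_mem hx]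
  omega

end Cochains

section Complex

variable {V0 : Type} {G : V0 → Type} (b : ∀ v, G v) (X : AbstractSimplicialComplex V0)
  (L : ∀ v, AbstractSimplicialComplex (G v))

/-- The complex `L v` is glued to `X` by identifying `b v` with `v`, for each vertex `v` of `X`. -/
def glue : AbstractSimplicialComplex (Σ v, G v) where
  faces := {s | (∃ t ∈ X, t.map (bas b) = s) ∨ ∃ v, ∃ t ∈ L v, t.map (fib G v) = s}
  isRelLowerSet_faces := by
    rintro s (⟨t, ht, rfl⟩ | ⟨v, t, ht, rfl⟩)
    · refine ⟨(X.isRelLowerSet_faces ht).1.map, fun u hu hne => Or.inl ?_⟩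
      obtain ⟨t', ht', rfl⟩ := subset_map_iff.1 hu
      exact ⟨t', (X.isRelLowerSet_faces ht).2 ht' (by simpa using hne), rfl⟩
    · refine ⟨((L v).isRelLowerSet_faces ht).1.map, fun u hu hne => Or.inr ?_⟩
      obtain ⟨t', ht', rfl⟩ := subset_map_iff.1 hu
      exact ⟨v, t', ((L v).isRelLowerSet_faces ht).2 ht' (by simpa using hne), rfl⟩
  singleton_mem x := Or.inr ⟨x.1, {x.2}, (L x.1).singleton_mem x.2, by simp⟩

theorem mem_glue {s : Finset (Σ v, G v)} : s ∈ glue b X L ↔
    (∃ t ∈ X, t.map (bas b) = s) ∨ ∃ v, ∃ t ∈ L v, t.map (fib G v) = s := Iff.rfl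

theorem bas_mem {t : Finset V0} (ht : t ∈ X) : t.map (bas b) ∈ glue b X L := Or.inl ⟨t, ht, rfl⟩

theorem fib_mem {v : V0} {t : Finset (G v)} (ht : t ∈ L v) : t.map (fib G v) ∈ glue b X L :=
  Or.inr ⟨v, t, ht, rfl⟩

/-- The glued complexes are induced subcomplexes. -/
theorem fib_mem_iff {v : V0} {t : Finset (G v)} : t.map (fib G v) ∈ glue b X L ↔ t ∈ L v := by
  refine ⟨?_, fun h => fib_mem b X L h⟩
  rintro (⟨t', ht', h⟩ | ⟨w, t', ht', h⟩)
  · -- `t'` is a single vertex
    have hne : t'.Nonempty := (X.isRelLowerSet_faces ht').1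
    have h1 : ∀ x ∈ t', x = v := by
      intro x hx
      have h2 : bas b x ∈ t.map (fib G v) := by
        rw [← h]
        exact mem_map_of_mem _ hx
      obtain ⟨y, -, hy⟩ := mem_map.1 h2
      exact (congrArg Sigma.fst hy).symm
    have h3 : t' = {v} := by
      obtain ⟨x, hx⟩ := hne
      ext y
      rw [mem_singleton]
      exact ⟨h1 y, fun h => by rw [h, ← h1 x hx]; exact hx⟩
    have h4 : t.map (fib G v) = ({b v} : Finset (G v)).map (fib G v) := by
      rw [← h, h3]
      simp
    rw [map_injective _ h4]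
    exact (L v).singleton_mem _
  · have hne : t'.Nonempty := ((L w).isRelLowerSet_faces ht').1
    obtain rfl := fib_ne hne h
    rw [← map_injective _ h]
    exact ht'

theorem glue_pure {d : ℕ} [Fintype V0] [∀ v, Fintype (G v)] (hX : IsPure X d)
    (hL : ∀ v, IsPure (L v) d) : IsPure (glue b X L) d := by
  rintro s (⟨t, ht, rfl⟩ | ⟨v, t, ht, rfl⟩)
  · obtain ⟨t', ht', hc, hsub⟩ := hX t ht
    exact ⟨_, bas_mem b X L ht', by rw [card_map, hc], map_subset_map.2 hsub⟩
  · obtain ⟨t', ht', hc, hsub⟩ := hL v t ht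
    exact ⟨_, fib_mem b X L ht', by rw [card_map, hc], map_subset_map.2 hsub⟩

theorem glue_connected {d : ℕ} (hd : 1 ≤ d) (hX : (skel X).Connected)
    (hL : ∀ v, IsCone (L v) (b v) d) : (skel (glue b X L)).Connected := by
  have h1 : ∀ v w, (skel (glue b X L)).Reachable (bas b v) (bas b w) := by
    intro v w
    let hom : skel X →g skel (glue b X L) := ⟨bas b, by
      rintro x y ⟨hne, hxy⟩
      refine ⟨fun h => hne ((bas b).injective h), ?_⟩
      have h2 := bas_mem b X L hxy
      rw [map_insert, map_singleton] at h2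
      exact h2⟩
    exact (hX.preconnected v w).map hom
  have h2 : ∀ x : Σ v, G v, (skel (glue b X L)).Reachable (bas b x.1) x := by
    rintro ⟨v, x⟩
    by_cases hx : b v = x
    · rw [← hx]
      exact SimpleGraph.Reachable.refl _
    · refine SimpleGraph.Adj.reachable ⟨?_, ?_⟩
      · intro h
        exact hx ((fib G v).injective h)
      · have h3 := fib_mem b X L (hL v {x} ((L v).singleton_mem x) (by simpa using hd))
        rw [map_insert, map_singleton] at h3
        exact h3
  obtain ⟨v0⟩ := hX.nonempty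
  exact (SimpleGraph.connected_iff _).2
    ⟨fun x y => ((h2 x).symm.trans (h1 _ _)).trans (h2 y), ⟨bas b v0⟩⟩

end Complex

end Vale.Agent.P067.H610
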