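import Vale.Agent.P067.H610.Glue

/-!
# P067: degree and cofilling constant of the glued complex
-/

set_option autoImplicit false

open Finset

namespace Vale.Agent.P067.H610

open Vale.Agent.P067

attribute [local instance] Classical.propDecidable

attribute [-instance] Sigma.instDecidableEqSigma instDecidableEqSigma

variable {V0 : Type} {G : V0 → Type} (b : ∀ v, G v) (X : AbstractSimplicialComplex V0)
  (L : ∀ v, AbstractSimplicialComplex (G v)) [Fintype V0] [∀ v, Fintype (G v)]

theorem glue_degree {d D M : ℕ} (hD : degree X d ≤ D) (hM : ∀ v, Fintype.card (G v) ≤ M) :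
    degree (glue b X L) d ≤ D + 2 ^ M := by
  unfold degree
  refine Finset.sup_le fun x _ => ?_
  obtain ⟨v, y⟩ := x
  have h0 : ((univ : Finset (Face X d)).filter fun t => v ∈ t.1).card ≤ D := by
    refine le_trans ?_ hD
    unfold degree
    exact le_sup (f := fun v : V0 => ((univ : Finset (Face X d)).filter fun t => v ∈ t.1).card)
      (mem_univ v)
  have h1 : ((univ : Finset (Finset (G v))).image (fun t => t.map (fib G v))).card ≤ 2 ^ M := by
    refine card_image_le.trans ?_
    rw [card_univ, Fintype.card_finset]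
    exact Nat.pow_le_pow_right (by norm_num) (hM v)
  have h2 : (((univ : Finset (Face X d)).filter fun t => v ∈ t.1).image
      (fun t => t.1.map (bas b))).card ≤ D := card_image_le.trans h0
  refine le_trans ?_ (Nat.add_le_add h2 h1)
  refine le_trans ?_ (card_union_le _ _)
  rw [← card_image_of_injective _ Subtype.val_injective]
  refine card_le_card ?_
  intro s hs
  obtain ⟨t, ht, rfl⟩ := mem_image.1 hs
  rw [mem_filter] at ht
  obtain ⟨t', ht', hc⟩ := t
  have hx : (⟨v, y⟩ : Σ v, G v) ∈ t' := ht.2
  rw [mem_union]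
  rcases ht' with ⟨u, hu, rfl⟩ | ⟨w, u, hu, rfl⟩
  · left
    rw [mem_image]
    refine ⟨⟨u, hu, by rwa [card_map] at hc⟩, ?_, rfl⟩
    rw [mem_filter]
    refine ⟨mem_univ _, ?_⟩
    obtain ⟨z, hz, hzx⟩ := mem_map.1 hx
    have : z = v := congrArg Sigma.fst hzx
    rw [← this]
    exact hz
  · right
    obtain ⟨z, hz, hzx⟩ := mem_map.1 hx
    have : w = v := congrArg Sigma.fst hzx
    subst this
    exact mem_image.2 ⟨u, mem_univ _, rfl⟩

theorem glue_cof {d K M : ℕ} (hX : Cof X d K) (hL : ∀ v, IsCone (L v) (b v) d)
    (hM : ∀ v, Fintype.card (G v) ≤ M) : Cof (glue b X L) d (2 ^ M * (2 * K + 1)) := by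
  intro q hq hqd f
  obtain ⟨e0, he0⟩ := hX q hq hqd (fun t => f (t.map (bas b)))
  refine ⟨fil b e0 f, ?_⟩
  -- comparison with the base
  have h1 : cnt X (q + 1) (cb fun t => f (t.map (bas b))) ≤ cnt (glue b X L) (q + 1) (cb f) := by
    unfold cnt
    refine card_le_card_of_injOn (fun t => t.map (bas b)) ?_ ?_
    · intro t ht
      rw [mem_coe, mem_filter] at ht ⊢
      refine ⟨mem_univ _, bas_mem b X L ht.2.1, by rw [card_map, ht.2.2.1], ?_⟩
      rw [cb_map]
      exact ht.2.2.2
    · intro t _ t' _ h
      exact map_injective _ h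
  -- bad vertices
  set bad : Finset V0 := univ.filter fun v => ∃ t ∈ L v, t.card = q + 1 ∧
    cb f (t.map (fib G v)) ≠ 0 with hbad
  have h2 : bad.card ≤ cnt (glue b X L) (q + 1) (cb f) := by
    have hch : ∀ v ∈ bad, ∃ t ∈ L v, t.card = q + 1 ∧ cb f (t.map (fib G v)) ≠ 0 :=
      fun v hv => (mem_filter.1 hv).2
    choose! T hT1 hT2 hT3 using hch
    unfold cnt
    refine card_le_card_of_injOn (fun v => (T v).map (fib G v)) ?_ ?_
    · intro v hv
      rw [mem_coe] at hv
      rw [mem_coe, mem_filter]
      exact ⟨mem_univ _, fib_mem b X L (hT1 v hv), by rw [card_map, hT2 v hv], hT3 v hv⟩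
    · intro v hv w hw h
      rw [mem_coe] at hv
      exact fib_ne (((L v).isRelLowerSet_faces (hT1 v hv)).1) h
  -- bad faces of the base
  set b0 : Finset (Finset V0) := univ.filter fun t => t ∈ X ∧ t.card = q ∧
    f (t.map (bas b)) + cb e0 t ≠ 0 with hb0
  have h3 : b0.card ≤ K * cnt (glue b X L) (q + 1) (cb f) :=
    he0.trans (Nat.mul_le_mul_left _ h1)
  set sg : Finset V0 := univ.filter fun v => ({v} : Finset V0) ∈ b0 with hsg
  have h4 : sg.card ≤ b0.card := by
    refine card_le_card_of_injOn (fun v => {v}) ?_ ?_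
    · intro v hv
      exact (mem_filter.1 hv).2
    · intro v _ w _ h
      exact singleton_injective h
  have h5 : ∀ v, ((univ : Finset (Finset (G v))).image (fun t => t.map (fib G v))).card ≤
      2 ^ M := by
    intro v
    refine card_image_le.trans ?_
    rw [card_univ, Fintype.card_finset]
    exact Nat.pow_le_pow_right (by norm_num) (hM v)
  have hsub : ((univ : Finset (Finset (Σ v, G v))).filter fun s => s ∈ glue b X L ∧
      s.card = q ∧ f s + cb (fil b e0 f) s ≠ 0) ⊆
      (b0.image fun t => t.map (bas b)) ∪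
        ((bad ∪ sg).biUnion fun v => (univ : Finset (Finset (G v))).image
          (fun t => t.map (fib G v))) := by
    intro s hs
    rw [mem_filter] at hs
    obtain ⟨-, hs1, hs2, hs3⟩ := hs
    rw [mem_union]
    rcases hs1 with ⟨t, ht, rfl⟩ | ⟨v, t, ht, rfl⟩
    · left
      rw [card_map] at hs2
      rw [cb_fil_bas] at hs3
      exact mem_image.2 ⟨t, mem_filter.2 ⟨mem_univ _, ht, hs2, hs3⟩, rfl⟩
    · right
      rw [card_map] at hs2
      refine mem_biUnion.2 ⟨v, ?_, mem_image.2 ⟨t, mem_univ _, rfl⟩⟩
      rw [mem_union]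
      by_cases hv : v ∈ bad
      · exact Or.inl hv
      right
      have hz : ∀ t' ∈ L v, t'.card = q + 1 → cb (fun u => f (u.map (fib G v))) t' = 0 := by
        intro t' ht' hc
        by_contra hne
        rw [← cb_map] at hne
        exact hv (mem_filter.2 ⟨mem_univ _, t', ht', hc, hne⟩)
      have hfill := ctr_fill (hL v) hqd (fun u => f (u.map (fib G v))) hz t ht hs2
      rcases Nat.lt_or_ge 1 q with hq1 | hq1
      · exfalso
        rw [cb_fil_fib b e0 f v t (by omega)] at hs3
        exact hs3 hfill
      · have hq1' : q = 1 := le_antisymm hq1 hq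
        subst hq1'
        rw [cb_fil_single b e0 f v t hs2] at hs3
        obtain ⟨y, rfl⟩ := card_eq_one.1 hs2
        have e1 : cb (ctr (b v) fun u => f (u.map (fib G v))) {y} =
            f (({b v} : Finset (G v)).map (fib G v)) := by
          unfold cb
          rw [sum_singleton]
          have h6 : ({y} : Finset (G v)).erase y = ∅ := by simp
          rw [h6]
          unfold ctr
          rw [if_neg (notMem_empty _), insert_empty_eq]
        rw [e1] at hfill
        have e2 : f (({y} : Finset (G v)).map (fib G v)) =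
            f (({b v} : Finset (G v)).map (fib G v)) := by
          have h7 := congrArg (· + f (({b v} : Finset (G v)).map (fib G v))) hfill
          beta_reduce at h7
          rw [add_assoc, CharTwo.add_self_eq_zero, add_zero, zero_add] at h7
          exact h7
        have e3 : ({b v} : Finset (G v)).map (fib G v) = ({v} : Finset V0).map (bas b) := by
          simp
        have e4 : cb e0 {v} = e0 ∅ := by
          unfold cb
          rw [sum_singleton]
          congr 1
          simp
        rw [e2, e3, ← e4] at hs3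
        refine mem_filter.2 ⟨mem_univ _, mem_filter.2 ⟨mem_univ _, X.singleton_mem v, by simp, hs3⟩⟩
  have h6 : cnt (glue b X L) q (fun s => f s + cb (fil b e0 f) s) ≤
      b0.card + (bad.card + b0.card) * 2 ^ M := by
    unfold cnt
    refine (card_le_card hsub).trans ((card_union_le _ _).trans ?_)
    refine Nat.add_le_add card_image_le ?_
    refine (card_biUnion_le_card_mul _ _ _ fun v _ => h5 v).trans ?_
    refine Nat.mul_le_mul_right _ ((card_union_le _ _).trans ?_)
    exact Nat.add_le_add_left h4 _
  refine h6.trans ?_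
  set B := cnt (glue b X L) (q + 1) (cb f) with hB
  have hp : 1 ≤ 2 ^ M := Nat.one_le_two_pow
  calc b0.card + (bad.card + b0.card) * 2 ^ M
      ≤ K * B * 2 ^ M + (B + K * B) * 2 ^ M := by
        refine Nat.add_le_add ?_ (Nat.mul_le_mul_right _ (Nat.add_le_add h2 h3))
        exact h3.trans (Nat.le_mul_of_pos_right _ hp)
    _ = 2 ^ M * (2 * K + 1) * B := by ring

end Vale.Agent.P067.H610
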