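import Vale.Agent.P067.H610.Glue2
import Vale.Agent.P067.H301.Main

/-!
# P067: coboundary expanders of every order, with prescribed induced subcomplexes
-/

set_option autoImplicit false

open Finset

namespace Vale.Agent.P067.H610

open Vale.Agent.P067

attribute [local instance] Classical.propDecidable

attribute [-instance] Sigma.instDecidableEqSigma instDecidableEqSigma

/-- Bounded-degree expanders at all scales, in the counting form. -/
theorem family (d : ℕ) (hd : 1 ≤ d) : ∃ D C K : ℕ, ∀ m : ℕ, ∃ (V : Type) (_ : Fintype V)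
    (X : AbstractSimplicialComplex V), (m < Fintype.card V ∧ Fintype.card V ≤ C * (m + 1)) ∧
      IsPure X d ∧ (skel X).Connected ∧ degree X d ≤ D ∧ Cof X d K := by
  obtain ⟨β, _, H⟩ := strong (2 * d) (by omega)
  obtain ⟨D, C, ε, hε, V, hV, Y, hP⟩ := H 1 one_pos
  obtain ⟨K, hK⟩ := exists_nat_ge ((D : ℝ) * 2 ^ (d + 1) / ε)
  refine ⟨D, C, K, fun m => ⟨V m, hV m, skeleton (Y m) d, (hP m).1, ?_⟩⟩
  obtain ⟨-, -, -, -, -, -, -, h⟩ := hP m
  obtain ⟨h1, h2, h3, h4, -⟩ := h d hd le_rfl
  refine ⟨h1, h2, h3, cof_of_expander h1 h3 h4 ?_ hε⟩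
  rwa [div_le_iff₀ hε] at hK

theorem Cof.mono {V : Type} [Fintype V] {X : AbstractSimplicialComplex V} {d K K' : ℕ}
    (h : Cof X d K) (hK : K ≤ K') : Cof X d K' := by
  intro q hq hqd f
  obtain ⟨e, he⟩ := h q hq hqd f
  exact ⟨e, he.trans (Nat.mul_le_mul_right _ hK)⟩

theorem degree_le_pow {V : Type} [Fintype V] (X : AbstractSimplicialComplex V) (d M : ℕ)
    (hM : Fintype.card V ≤ M) : degree X d ≤ 2 ^ M := by
  unfold degree
  refine Finset.sup_le fun v _ => ?_
  rw [← card_image_of_injective _ Subtype.val_injective]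
  refine (card_le_univ _).trans ?_
  rw [Fintype.card_finset]
  exact Nat.pow_le_pow_right (by norm_num) hM

theorem sum_sizes (N n : ℕ) (hN : 0 < N) :
    ∑ i : Fin N, (n / N + if i.val < n % N then 1 else 0) = n := by
  rw [sum_add_distrib, sum_const, card_univ, Fintype.card_fin, smul_eq_mul,
    Fin.sum_univ_eq_sum_range (fun i => if i < n % N then 1 else 0) N, ← card_filter]
  have h1 : (range N).filter (fun i => i < n % N) = range (n % N) := by
    ext i
    simp only [mem_filter, mem_range]
    have := Nat.mod_lt n hN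
    omega
  rw [h1, card_range]
  exact Nat.div_add_mod n N

/-- Coboundary expanders of every order, containing a linear number of disjoint induced copies of
a prescribed finite complex. -/
theorem every_order (d : ℕ) (hd : 1 ≤ d) (U : Type) [Fintype U] (K : AbstractSimplicialComplex U)
    (hK : ∀ s ∈ K, s.card ≤ d + 1) :
    ∃ (D : ℕ) (ε c : ℝ), 0 < ε ∧ 0 < c ∧ ∀ n : ℕ, Fintype.card U + d + 1 ≤ n →
      ∃ (V : Type) (_ : Fintype V) (X : AbstractSimplicialComplex V),
        Fintype.card V = n ∧ IsPure X d ∧ (skel X).Connected ∧ degree X d ≤ D ∧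
        IsCoboundaryExpander X d ε ∧
        ∃ (k : ℕ) (j : Fin k → U ↪ V), c * n ≤ k ∧
          (Pairwise fun i i' => Disjoint (Set.range (j i)) (Set.range (j i'))) ∧
          ∀ i, ∀ s : Finset U, s.map (j i) ∈ X ↔ s ∈ K := by
  obtain ⟨D, C, K0, hfam⟩ := family d hd
  have hC : 1 ≤ C := by
    obtain ⟨V, _, X, ⟨h1, h2⟩, -⟩ := hfam 0
    by_contra hC
    have : C = 0 := by omega
    subst this
    omega
  set M0 : ℕ := Fintype.card U + d + 1 with hM0
  set M1 : ℕ := 2 * C * M0 with hM1
  have hM0pos : 1 ≤ M0 := by omega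
  have hCM : C * M0 ≤ M1 := by
    rw [hM1]
    nlinarith
  have hM1pos : 0 < M1 := by positivity
  set K1 : ℕ := 2 ^ M1 * (2 * K0 + 1) with hK1
  set D1 : ℕ := D + 2 ^ M1 with hD1
  refine ⟨D1, 1 / ((K1 + 1) * (D1 + 1) * 2 ^ (d + 1)), 1 / M1, by positivity, by positivity, ?_⟩
  intro n hn
  rcases Nat.lt_or_ge n (C * M0) with hsmall | hbig
  · -- one gadget
    have hpos : 0 < n - Fintype.card U := by omega
    let A : Type := U ⊕ Fin (n - Fintype.card U)
    let j : U ↪ A := Function.Embedding.inl
    let b : A := Sum.inr ⟨0, hpos⟩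
    have hb : b ∉ Set.range j := by
      rintro ⟨u, hu⟩
      exact Sum.inl_ne_inr hu
    have hcard : Fintype.card A = n := by
      change Fintype.card (U ⊕ Fin (n - Fintype.card U)) = n
      rw [Fintype.card_sum, Fintype.card_fin]
      omega
    have hcone := gad_cone K j d b hb
    have hpure : IsPure (gad K j d) d := gad_pure K j d (by omega)
    have hdeg : degree (gad K j d) d ≤ D1 :=
      (degree_le_pow _ d M1 (by omega)).trans (Nat.le_add_left _ _)
    have hcof : Cof (gad K j d) d K1 := by
      refine (cone_cof hcone (M := M1) (by omega)).mono ?_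
      exact Nat.le_mul_of_pos_right _ (by omega)
    refine ⟨A, inferInstance, gad K j d, hcard, hpure, cone_connected hcone hd, hdeg,
      expander_of_cof hpure hdeg hcof, 1, fun _ => j, ?_, ?_, fun _ s => gad_copy K j d hK s⟩
    · rw [one_div, inv_mul_le_iff₀ (by positivity)]
      have : n ≤ M1 * 1 := by omega
      exact_mod_cast this
    · intro i i' hne
      exact absurd (Subsingleton.elim i i') hne
  · -- gadgets on all vertices of an expander
    set a : ℕ := n / (C * M0) with ha
    have hCM0 : 0 < C * M0 := by positivity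
    have ha1 : 1 ≤ a := (Nat.one_le_div_iff hCM0).2 hbig
    obtain ⟨V0, _, X, ⟨hm1, hm2⟩, hpure, hconn, hdeg, hcof⟩ := hfam (a - 1)
    rw [Nat.sub_add_cancel ha1] at hm2
    set N : ℕ := Fintype.card V0 with hN
    have hNpos : 0 < N := by omega
    have hn1 : N * M0 ≤ n := by
      calc N * M0 ≤ C * a * M0 := Nat.mul_le_mul_right _ hm2
        _ = a * (C * M0) := by ring
        _ ≤ n := Nat.div_mul_le_self n (C * M0)
    have hn2 : n < M1 * N := by
      have h1 : n < (a + 1) * (C * M0) := by
        have := Nat.lt_div_mul_add (a := n) hCM0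
        rw [← ha] at this
        linarith
      calc n < (a + 1) * (C * M0) := h1
        _ ≤ (2 * a) * (C * M0) := Nat.mul_le_mul_right _ (by omega)
        _ = M1 * a := by rw [hM1]; ring
        _ ≤ M1 * N := Nat.mul_le_mul_left _ (by omega)
    have hq1 : M0 ≤ n / N := (Nat.le_div_iff_mul_le hNpos).2 (by linarith)
    have hq2 : n / N < M1 := (Nat.div_lt_iff_lt_mul hNpos).2 hn2
    let e : V0 ≃ Fin N := Fintype.equivFin V0
    let sz : V0 → ℕ := fun v => n / N + if (e v).val < n % N then 1 else 0
    have hsz1 : ∀ v, M0 ≤ sz v := fun v => hq1.trans (Nat.le_add_right _ _)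
    have hsz2 : ∀ v, sz v ≤ M1 := by
      intro v
      change n / N + (if (e v).val < n % N then 1 else 0) ≤ M1
      split_ifs <;> omega
    let G : V0 → Type := fun v => U ⊕ Fin (sz v - Fintype.card U)
    have hpos : ∀ v, 0 < sz v - Fintype.card U := fun v => by
      have := hsz1 v
      omega
    let j : ∀ v, U ↪ G v := fun v => Function.Embedding.inl
    let b : ∀ v, G v := fun v => Sum.inr ⟨0, hpos v⟩
    let _ : ∀ v, Fintype (G v) := fun v =>
      (inferInstance : Fintype (U ⊕ Fin (sz v - Fintype.card U)))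
    have hb : ∀ v, b v ∉ Set.range (j v) := by
      intro v
      rintro ⟨u, hu⟩
      exact Sum.inl_ne_inr hu
    have hcard : ∀ v, Fintype.card (G v) = sz v := by
      intro v
      change Fintype.card (U ⊕ Fin (sz v - Fintype.card U)) = sz v
      rw [Fintype.card_sum, Fintype.card_fin]
      have := hsz1 v
      omega
    let L : ∀ v, AbstractSimplicialComplex (G v) := fun v => gad K (j v) d
    have hcone : ∀ v, IsCone (L v) (b v) d := fun v => gad_cone K (j v) d (b v) (hb v)
    have hLp : ∀ v, IsPure (L v) d := fun v => gad_pure K (j v) d (by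
      rw [hcard]
      exact hsz1 v)
    have hP : IsPure (glue b X L) d := glue_pure b X L hpure hLp
    have hDg : degree (glue b X L) d ≤ D1 := glue_degree b X L hdeg fun v => by
      rw [hcard]
      exact hsz2 v
    have hCf : Cof (glue b X L) d K1 := glue_cof b X L hcof hcone fun v => by
      rw [hcard]
      exact hsz2 v
    refine ⟨Σ v, G v, inferInstance, glue b X L, ?_, hP, glue_connected b X L hd hconn hcone, hDg,
      expander_of_cof hP hDg hCf, N, fun i => (j (e.symm i)).trans (fib G (e.symm i)), ?_, ?_, ?_⟩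
    · rw [Fintype.card_sigma, sum_congr rfl fun v _ => hcard v]
      have h1 := sum_sizes N n hNpos
      rw [← h1]
      exact (Equiv.sum_comp e fun i : Fin N => n / N + if i.val < n % N then 1 else 0)
    · rw [one_div, inv_mul_le_iff₀ (by positivity)]
      exact_mod_cast hn2.le
    · intro i i' hne
      rw [Set.disjoint_left]
      rintro x ⟨u, rfl⟩ ⟨u', hu'⟩
      have h1 : e.symm i' = e.symm i := congrArg Sigma.fst hu'
      exact hne (e.symm.injective h1).symm
    · intro i s
      have h1 : s.map ((j (e.symm i)).trans (fib G (e.symm i))) =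
          (s.map (j (e.symm i))).map (fib G (e.symm i)) := by
        rw [map_map]
      rw [h1, fib_mem_iff]
      exact gad_copy K _ d hK s

end Vale.Agent.P067.H610
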